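import Mathlib

/-!
# P345 Compile: structured commands compute every primitive recursive function
-/

namespace Vale.Agent.P345

open Function

/-- Structured commands over registers indexed by `ℕ`. -/
inductive Cmd where
  | skip
  | inc (r : ℕ)
  | dec (r : ℕ)
  | seq (p q : Cmd)
  | loop (r : ℕ) (body : Cmd)

/-- Big-step semantics; `loop r p` is while `r ≠ 0`: decrement `r`, run `p`. -/
inductive Exec : Cmd → (ℕ → ℕ) → (ℕ → ℕ) → Prop
  | skip (σ : ℕ → ℕ) : Exec .skip σ σ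
  | inc (r : ℕ) (σ : ℕ → ℕ) : Exec (.inc r) σ (update σ r (σ r + 1))
  | dec (r : ℕ) (σ : ℕ → ℕ) : Exec (.dec r) σ (update σ r (σ r - 1))
  | seq {p q : Cmd} {σ σ₁ σ₂ : ℕ → ℕ} :
      Exec p σ σ₁ → Exec q σ₁ σ₂ → Exec (.seq p q) σ σ₂
  | loopStop {r : ℕ} {p : Cmd} {σ : ℕ → ℕ} : σ r = 0 → Exec (.loop r p) σ σ
  | loopStep {r m : ℕ} {p : Cmd} {σ σ₁ σ₂ : ℕ → ℕ} :
      σ r = m + 1 → Exec p (update σ r m) σ₁ → Exec (.loop r p) σ₁ σ₂ →
        Exec (.loop r p) σ σ₂

/-- Invariant rule for counted loops; `I i` holds when `i` iterations remain. -/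
theorem Exec.loop_inv {r : ℕ} {p : Cmd} {I : ℕ → (ℕ → ℕ) → Prop}
    (h0 : ∀ τ, I 0 τ → τ r = 0)
    (hs : ∀ i τ, I (i + 1) τ → τ r = i + 1 ∧ ∃ τ', Exec p (update τ r i) τ' ∧ I i τ') :
    ∀ (m : ℕ) (σ : ℕ → ℕ), I m σ → ∃ σ', Exec (.loop r p) σ σ' ∧ I 0 σ' := by
  intro m
  induction m with
  | zero => exact fun σ h => ⟨σ, .loopStop (h0 σ h), h⟩
  | succ i ih =>
    intro σ h
    obtain ⟨hr, τ, he, hI⟩ := hs i σ h
    obtain ⟨σ', he', hI'⟩ := ih τ hI
    exact ⟨σ', .loopStep hr he he', hI'⟩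

/-- Set a register to zero. -/
def clear (r : ℕ) : Cmd := .loop r .skip

theorem exec_clear (r : ℕ) (σ : ℕ → ℕ) : Exec (clear r) σ (update σ r 0) := by
  obtain ⟨σ', he, hI⟩ :=
    Exec.loop_inv (r := r) (p := .skip) (I := fun i τ => τ = update σ r i)
      (fun τ h => by simp [h])
      (fun i τ h => ⟨by simp [h], _, .skip _, by simp [h]⟩) (σ r) σ (by simp)
  exact hI ▸ he

/-- Copy `s` into `d`, using the scratch register `t`. -/
def copy (d s t : ℕ) : Cmd :=
  .seq (clear d) (.seq (clear t)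
    (.seq (.loop s (.seq (.inc d) (.inc t))) (.loop t (.inc s))))

theorem exec_copy {d s t : ℕ} (hds : d ≠ s) (hdt : d ≠ t) (hst : s ≠ t) (σ : ℕ → ℕ) :
    ∃ σ', Exec (copy d s t) σ σ' ∧ σ' d = σ s ∧ ∀ r, r ≠ d → r ≠ t → σ' r = σ r := by
  obtain ⟨σ₁, e₁, s₁, d₁, t₁, o₁⟩ :=
    Exec.loop_inv (r := s) (p := .seq (.inc d) (.inc t))
      (I := fun i τ => τ s = i ∧ τ d + i = σ s ∧ τ t + i = σ s ∧
        ∀ r, r ≠ d → r ≠ s → r ≠ t → τ r = σ r)
      (fun τ h => h.1)
      (fun i τ h => by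
        obtain ⟨hs, hd, ht, ho⟩ := h
        refine ⟨hs, _, .seq (.inc _ _) (.inc _ _), ?_, ?_, ?_, fun r h1 h2 h3 => ?_⟩
        · simp [hds.symm, hst]
        · simp [hds, hdt]; omega
        · simp [hdt.symm, hst.symm]; omega
        · simp [h1, h2, h3, ho r h1 h2 h3])
      (σ s) (update (update σ d 0) t 0)
      ⟨by simp [hds.symm, hst], by simp [hdt], by simp,
        fun r h1 h2 h3 => by simp [h1, h3]⟩
  simp only [Nat.add_zero] at d₁ t₁
  obtain ⟨σ₂, e₂, t₂, s₂, o₂⟩ :=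
    Exec.loop_inv (r := t) (p := .inc s)
      (I := fun i τ => τ t = i ∧ τ s + i = σ s ∧ ∀ r, r ≠ s → r ≠ t → τ r = σ₁ r)
      (fun τ h => h.1)
      (fun i τ h => by
        obtain ⟨ht, hs, ho⟩ := h
        refine ⟨ht, _, .inc _ _, ?_, ?_, fun r h1 h2 => ?_⟩
        · simp [hst.symm]
        · simp [hst]; omega
        · simp [h1, h2, ho r h1 h2])
      (σ s) σ₁ ⟨t₁, by simp [s₁], fun r _ _ => rfl⟩
  refine ⟨σ₂, .seq (exec_clear d σ) (.seq (exec_clear t _) (.seq e₁ e₂)),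
    (o₂ d hds hdt).trans d₁, fun r h1 h2 => ?_⟩
  by_cases hrs : r = s
  · subst hrs; simpa using s₂
  · rw [o₂ r hrs h2, o₁ r h1 hrs h2]

/-- `f` is computed by a command on any inputs below a free bound `b`, keeping all registers
below `b` except the output. -/
def Computes {k : ℕ} (f : List.Vector ℕ k → ℕ) : Prop :=
  ∀ (ins : Fin k → ℕ) (o b : ℕ), (∀ i, ins i < b) → o < b → (∀ i, ins i ≠ o) →
    ∃ p : Cmd, ∀ σ : ℕ → ℕ, ∃ σ', Exec p σ σ' ∧
      σ' o = f (List.Vector.ofFn fun i => σ (ins i)) ∧ ∀ r, r < b → r ≠ o → σ' r = σ r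

theorem computes_zero : Computes (fun _ : List.Vector ℕ 0 => 0) := fun _ o _ _ _ _ =>
  ⟨clear o, fun σ => ⟨_, exec_clear o σ, by simp, fun r _ hr => by simp [hr]⟩⟩

theorem computes_succ : Computes (fun v : List.Vector ℕ 1 => v.head.succ) := by
  intro ins o b hins ho hne
  refine ⟨.seq (copy o (ins 0) b) (.inc o), fun σ => ?_⟩
  obtain ⟨σ₁, e₁, d₁, o₁⟩ := exec_copy (hne 0).symm ho.ne (hins 0).ne σ
  exact ⟨_, .seq e₁ (.inc _ _), by simp [d₁, List.Vector.ofFn],
    fun r hr hro => by simp [hro, o₁ r hro hr.ne]⟩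

theorem computes_get {n : ℕ} (i : Fin n) : Computes (fun v : List.Vector ℕ n => v.get i) := by
  intro ins o b hins ho hne
  refine ⟨copy o (ins i) b, fun σ => ?_⟩
  obtain ⟨σ₁, e₁, d₁, o₁⟩ := exec_copy (hne i).symm ho.ne (hins i).ne σ
  exact ⟨σ₁, e₁, by simpa using d₁, fun r hr hro => o₁ r hro hr.ne⟩

theorem computes_family {m n : ℕ} {g : Fin n → List.Vector ℕ m → ℕ} (hg : ∀ i, Computes (g i))
    (ins : Fin m → ℕ) (b : ℕ) (hins : ∀ i, ins i < b) :
    ∃ p : Cmd, ∀ σ : ℕ → ℕ, ∃ σ', Exec p σ σ' ∧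
      (∀ i : Fin n, σ' (b + i) = g i (List.Vector.ofFn fun j => σ (ins j))) ∧
      ∀ r, r < b → σ' r = σ r := by
  suffices H : ∀ j ≤ n, ∃ p : Cmd, ∀ σ : ℕ → ℕ, ∃ σ', Exec p σ σ' ∧
      (∀ i : Fin n, (i : ℕ) < j → σ' (b + i) = g i (List.Vector.ofFn fun l => σ (ins l))) ∧
      ∀ r, r < b → σ' r = σ r by
    obtain ⟨p, hp⟩ := H n le_rfl
    refine ⟨p, fun σ => ?_⟩
    obtain ⟨σ', e, v, k⟩ := hp σ
    exact ⟨σ', e, fun i => v i i.2, k⟩
  intro j hj
  induction j with
  | zero => exact ⟨.skip, fun σ => ⟨σ, .skip σ, fun i h => absurd h (Nat.not_lt_zero _),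
      fun r _ => rfl⟩⟩
  | succ j ih =>
    obtain ⟨p, hp⟩ := ih (by omega)
    obtain ⟨q, hq⟩ := hg ⟨j, hj⟩ ins (b + j) (b + n) (fun i => (hins i).trans_le (by omega))
      (by omega) (fun i => by have := hins i; omega)
    refine ⟨.seq p q, fun σ => ?_⟩
    obtain ⟨σ₁, e₁, v₁, k₁⟩ := hp σ
    obtain ⟨σ₂, e₂, v₂, k₂⟩ := hq σ₁
    refine ⟨σ₂, .seq e₁ e₂, fun i hi => ?_, fun r hr => ?_⟩
    · rcases Nat.lt_succ_iff_lt_or_eq.1 hi with h | h
      · rw [k₂ (b + i) (by omega) (by omega), v₁ i h]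
      · obtain rfl : i = ⟨j, hj⟩ := Fin.ext h
        rw [v₂]
        congr 2
        funext l
        exact k₁ _ (hins l)
    · rw [k₂ r (by omega) (by omega), k₁ r hr]

theorem computes_comp {m n : ℕ} {f : List.Vector ℕ n → ℕ} (g : Fin n → List.Vector ℕ m → ℕ)
    (hf : Computes f) (hg : ∀ i, Computes (g i)) :
    Computes (fun a => f (List.Vector.ofFn fun i => g i a)) := by
  intro ins o b hins ho hne
  obtain ⟨p, hp⟩ := computes_family hg ins b hins
  obtain ⟨q, hq⟩ := hf (fun i => b + i) o (b + n) (fun i => by simp)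
    (by omega) (fun i => by omega)
  refine ⟨.seq p q, fun σ => ?_⟩
  obtain ⟨σ₁, e₁, v₁, k₁⟩ := hp σ
  obtain ⟨σ₂, e₂, v₂, k₂⟩ := hq σ₁
  refine ⟨σ₂, .seq e₁ e₂, ?_, fun r hr hro => ?_⟩
  · simp only [v₂, v₁]
  · rw [k₂ r (by omega) hro, k₁ r hr]

theorem computes_prec {n : ℕ} {f : List.Vector ℕ n → ℕ} {g : List.Vector ℕ (n + 2) → ℕ}
    (hf : Computes f) (hg : Computes g) :
    Computes (fun v : List.Vector ℕ (n + 1) =>
      v.head.rec (f v.tail) fun y IH => g (y ::ᵥ IH ::ᵥ v.tail)) := by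
  intro ins o b hins ho hne
  obtain ⟨pf, hpf⟩ := hf (fun i => ins i.succ) (b + 2) (b + 5)
    (fun i => (hins _).trans_le (by omega)) (by omega) (fun i => by have := hins i.succ; omega)
  obtain ⟨pg, hpg⟩ := hg (Fin.cons (b + 1) (Fin.cons (b + 2) fun i => ins i.succ)) (b + 3) (b + 5)
    (fun i => by
      refine Fin.cases ?_ (fun j => Fin.cases ?_ (fun l => ?_) j) i
      · simp
      · simp
      · simp; have := hins l.succ; omega)
    (by omega)
    (fun i => by
      refine Fin.cases ?_ (fun j => Fin.cases ?_ (fun l => ?_) j) i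
      · simp
      · simp
      · simp; have := hins l.succ; omega)
  refine ⟨.seq (copy b (ins 0) (b + 4)) (.seq (clear (b + 1)) (.seq pf (.seq
    (.loop b (.seq pg (.seq (copy (b + 2) (b + 3) (b + 4)) (.inc (b + 1)))))
    (copy o (b + 2) (b + 4))))), fun σ => ?_⟩
  have h0 := hins 0
  obtain ⟨σ₁, e₁, d₁, k₁⟩ := exec_copy (d := b) (s := ins 0) (t := b + 4)
    (by omega) (by omega) (by omega) σ
  obtain ⟨σ₃, e₃, v₃, k₃⟩ := hpf (update σ₁ (b + 1) 0)
  have hrest : ∀ τ : ℕ → ℕ, (∀ r, r < b → τ r = σ r) →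
      (List.Vector.ofFn fun i : Fin n => τ (ins i.succ)) =
        List.Vector.ofFn fun i => σ (ins i.succ) := fun τ h => by
    congr 1
    funext i
    exact h _ (hins _)
  set rest := List.Vector.ofFn fun i : Fin n => σ (ins i.succ)
  let R : ℕ → ℕ := fun y => y.rec (f rest) fun y IH => g (y ::ᵥ IH ::ᵥ rest)
  obtain ⟨σ₄, e₄, -, y₄, a₄, k₄⟩ :=
    Exec.loop_inv (r := b) (p := .seq pg (.seq (copy (b + 2) (b + 3) (b + 4)) (.inc (b + 1))))
      (I := fun i τ => τ b = i ∧ τ (b + 1) + i = σ (ins 0) ∧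
        τ (b + 2) = R (τ (b + 1)) ∧ ∀ r, r < b → τ r = σ r)
      (fun τ h => h.1)
      (fun i τ h => by
        obtain ⟨hb, hy, ha, hk⟩ := h
        obtain ⟨τ₁, f₁, w₁, l₁⟩ := hpg (update τ b i)
        obtain ⟨τ₂, f₂, w₂, l₂⟩ := exec_copy (d := b + 2) (s := b + 3) (t := b + 4)
          (by omega) (by omega) (by omega) τ₁
        refine ⟨hb, _, .seq f₁ (.seq f₂ (.inc _ _)), ?_, ?_, ?_, fun r hr => ?_⟩
        · rw [update_of_ne (by omega), l₂ b (by omega) (by omega), l₁ b (by omega) (by omega),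
            update_self]
        · rw [update_self, l₂ (b + 1) (by omega) (by omega), l₁ (b + 1) (by omega) (by omega),
            update_of_ne (by omega)]
          omega
        · rw [update_of_ne (by omega), update_self, w₂, w₁, l₂ (b + 1) (by omega) (by omega),
            l₁ (b + 1) (by omega) (by omega), update_of_ne (by omega)]
          have hv : (List.Vector.ofFn fun j => update τ b i
              (Fin.cons (α := fun _ => ℕ) (b + 1) (Fin.cons (b + 2) fun l => ins l.succ) j)) =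
              τ (b + 1) ::ᵥ τ (b + 2) ::ᵥ rest := by
            rw [← hrest (update τ b i) fun r hr => by rw [update_of_ne (by omega), hk r hr]]
            simp [List.Vector.ofFn]
          rw [hv, ha]
        · rw [update_of_ne (by omega), l₂ r (by omega) (by omega), l₁ r (by omega) (by omega),
            update_of_ne (by omega), hk r hr])
      (σ (ins 0)) σ₃
      ⟨by rw [k₃ b (by omega) (by omega), update_of_ne (by omega), d₁],
        by rw [k₃ (b + 1) (by omega) (by omega), update_self]; omega,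
        by
          rw [v₃, k₃ (b + 1) (by omega) (by omega), update_self]
          show f _ = f rest
          rw [hrest _ fun r hr => by
            rw [update_of_ne (by omega), k₁ r (by omega) (by omega)]],
        fun r hr => by
          rw [k₃ r (by omega) (by omega), update_of_ne (by omega), k₁ r (by omega) (by omega)]⟩
  obtain ⟨σ₅, e₅, d₅, k₅⟩ := exec_copy (d := o) (s := b + 2) (t := b + 4)
    (by omega) (by omega) (by omega) σ₄
  refine ⟨σ₅, .seq e₁ (.seq (exec_clear _ _) (.seq e₃ (.seq e₄ e₅))), ?_, fun r hr hro => ?_⟩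
  · rw [d₅, a₄, show σ₄ (b + 1) = σ (ins 0) by omega]
    simp [R, rest, List.Vector.ofFn]
  · rw [k₅ r hro (by omega), k₄ r hr]

/-- Every primitive recursive function is computed by a command. -/
theorem computes_of_primrec' {n : ℕ} {f : List.Vector ℕ n → ℕ} (hf : Nat.Primrec' f) :
    Computes f := by
  induction hf with
  | zero => exact computes_zero
  | succ => exact computes_succ
  | get i => exact computes_get i
  | comp g _ _ ihf ihg => exact computes_comp g ihf ihg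
  | prec _ _ ihf ihg => exact computes_prec ihf ihg

end Vale.Agent.P345
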