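import Vale.Agent.P345.Defs
import Vale.Agent.P345.Compile.Cmd

/-!
# P345 Compile: flattening structured commands into register machine programs
-/

namespace Vale.Agent.P345

open Function

/-- Instructions with registers and labels in `ℕ`. -/
inductive NInstr where
  | inc (r next : ℕ)
  | dec (r ifPos ifZero : ℕ)
  | halt

namespace NInstr

/-- One step on `ℕ`-indexed configurations; leaving the program fixes the configuration. -/
def step (code : List NInstr) (c : ℕ × (ℕ → ℕ)) : ℕ × (ℕ → ℕ) :=
  match code[c.1]? with
  | some (.inc r l) => (l, update c.2 r (c.2 r + 1))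
  | some (.dec r p z) => if c.2 r = 0 then (z, c.2) else (p, update c.2 r (c.2 r - 1))
  | _ => c

theorem step_inc {code : List NInstr} {off r l : ℕ} (h : code[off]? = some (.inc r l))
    (σ : ℕ → ℕ) : step code (off, σ) = (l, update σ r (σ r + 1)) := by
  simp [step, h]

theorem step_dec_pos {code : List NInstr} {off r p z : ℕ} (h : code[off]? = some (.dec r p z))
    {σ : ℕ → ℕ} (hr : σ r ≠ 0) : step code (off, σ) = (p, update σ r (σ r - 1)) := by
  simp [step, h, hr]

theorem step_dec_zero {code : List NInstr} {off r p z : ℕ} (h : code[off]? = some (.dec r p z))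
    {σ : ℕ → ℕ} (hr : σ r = 0) : step code (off, σ) = (z, σ) := by
  simp [step, h, hr]

/-- All registers are below `R` and all targets below `L`. -/
def WF (R L : ℕ) : NInstr → Prop
  | .inc r l => r < R ∧ l < L
  | .dec r p z => r < R ∧ p < L ∧ z < L
  | .halt => True

/-- Reduce registers and labels modulo the given positive bounds. -/
def toInstr (R L : ℕ) [NeZero R] [NeZero L] : NInstr → Instr R L
  | .inc r l => .inc (Fin.ofNat R r) (Fin.ofNat L l)
  | .dec r p z => .dec (Fin.ofNat R r) (Fin.ofNat L p) (Fin.ofNat L z)
  | .halt => .halt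

end NInstr

namespace Cmd

/-- The number of instructions. -/
def size : Cmd → ℕ
  | .skip => 2
  | .inc _ => 1
  | .dec _ => 1
  | .seq p q => p.size + q.size
  | .loop _ p => p.size + 1

/-- A bound on the registers used. -/
def bound : Cmd → ℕ
  | .skip => 1
  | .inc r => r + 1
  | .dec r => r + 1
  | .seq p q => max p.bound q.bound
  | .loop r p => max (r + 1) p.bound

theorem size_pos : ∀ p : Cmd, 0 < p.size
  | .skip => by simp [size]
  | .inc _ => by simp [size]
  | .dec _ => by simp [size]
  | .seq p q => by have := p.size_pos; simp [size]; omega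
  | .loop _ p => by simp [size]

/-- The code of a command placed at `off`, continuing at `exit`. -/
def flat : Cmd → ℕ → ℕ → List NInstr
  | .skip, off, e => [.inc 0 (off + 1), .dec 0 e e]
  | .inc r, _, e => [.inc r e]
  | .dec r, _, e => [.dec r e e]
  | .seq p q, off, e => p.flat off (off + p.size) ++ q.flat (off + p.size) e
  | .loop r p, off, e => .dec r (off + 1) e :: p.flat (off + 1) off

theorem length_flat : ∀ (p : Cmd) (off e : ℕ), (p.flat off e).length = p.size
  | .skip, _, _ => rfl
  | .inc _, _, _ => rfl
  | .dec _, _, _ => rfl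
  | .seq p q, _, _ => by simp [flat, size, length_flat p, length_flat q]
  | .loop _ p, _, _ => by simp [flat, size, length_flat p]

theorem not_halt_mem_flat : ∀ (p : Cmd) (off e : ℕ), NInstr.halt ∉ p.flat off e
  | .skip, _, _ => by simp [flat]
  | .inc _, _, _ => by simp [flat]
  | .dec _, _, _ => by simp [flat]
  | .seq p q, _, _ => by simp [flat, not_halt_mem_flat p, not_halt_mem_flat q]
  | .loop _ p, _, _ => by simp [flat, not_halt_mem_flat p]

theorem wf_flat {R L : ℕ} : ∀ (p : Cmd) (off e : ℕ), p.bound ≤ R → off + p.size ≤ L → e < L →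
    ∀ i ∈ p.flat off e, NInstr.WF R L i
  | .skip, off, e => fun hb hs he => by simp [flat, NInstr.WF, bound, size] at *; omega
  | .inc r, off, e => fun hb hs he => by simp [flat, NInstr.WF, bound] at *; omega
  | .dec r, off, e => fun hb hs he => by simp [flat, NInstr.WF, bound] at *; omega
  | .seq p q, off, e => fun hb hs he i hi => by
      simp only [bound, max_le_iff, size] at hb hs
      rcases List.mem_append.1 hi with h | h
      · exact wf_flat p _ _ hb.1 (by omega) (by have := q.size_pos; omega) i h
      · exact wf_flat q _ _ hb.2 (by omega) he i h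
  | .loop r p, off, e => fun hb hs he i hi => by
      simp only [bound, max_le_iff, size] at hb hs
      rcases List.mem_cons.1 hi with rfl | h
      · exact ⟨by omega, by have := p.size_pos; omega, he⟩
      · exact wf_flat p _ _ hb.2 (by omega) (by omega) i h

/-- `code` contains the command at `off`, continuing at `e`. -/
def Placed (code : List NInstr) : Cmd → ℕ → ℕ → Prop
  | .skip, off, e => code[off]? = some (.inc 0 (off + 1)) ∧ code[off + 1]? = some (.dec 0 e e)
  | .inc r, off, e => code[off]? = some (.inc r e)
  | .dec r, off, e => code[off]? = some (.dec r e e)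
  | .seq p q, off, e => Placed code p off (off + p.size) ∧ Placed code q (off + p.size) e
  | .loop r p, off, e =>
      code[off]? = some (.dec r (off + 1) e) ∧ Placed code p (off + 1) off

theorem placed_flat : ∀ (p : Cmd) (pre suf : List NInstr) (e : ℕ),
    Placed (pre ++ (p.flat pre.length e ++ suf)) p pre.length e
  | .skip, pre, suf, e => by
      refine ⟨by simp [flat], ?_⟩
      rw [List.getElem?_append_right (by omega)]
      simp [flat]
  | .inc _, pre, suf, e => by simp [Placed, flat]
  | .dec _, pre, suf, e => by simp [Placed, flat]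
  | .seq p q, pre, suf, e => by
      have hl : (pre ++ p.flat pre.length (pre.length + p.size)).length = pre.length + p.size := by
        simp [length_flat]
      refine ⟨?_, ?_⟩
      · have := placed_flat p pre (q.flat (pre.length + p.size) e ++ suf) (pre.length + p.size)
        simpa [flat, List.append_assoc] using this
      · have := placed_flat q (pre ++ p.flat pre.length (pre.length + p.size)) suf e
        rw [hl] at this
        simpa [flat, List.append_assoc] using this
  | .loop r p, pre, suf, e => by
      refine ⟨by simp [flat], ?_⟩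
      have := placed_flat p (pre ++ [.dec r (pre.length + 1) e]) suf pre.length
      simpa [flat, List.append_assoc] using this

end Cmd

open NInstr in
/-- A terminating command runs to its exit in at least one step. -/
theorem Exec.reach {code : List NInstr} {p : Cmd} {σ σ' : ℕ → ℕ} (h : Exec p σ σ') :
    ∀ {off e : ℕ}, p.Placed code off e → ∃ t, 0 < t ∧ (step code)^[t] (off, σ) = (e, σ') := by
  induction h with
  | skip σ =>
    intro off e ⟨h1, h2⟩
    refine ⟨2, by omega, ?_⟩
    show step code (step code (off, σ)) = _
    rw [step_inc h1, step_dec_pos h2 (by simp)]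
    simp
  | inc r σ => exact fun hp => ⟨1, Nat.one_pos, step_inc hp σ⟩
  | dec r σ =>
    intro off e hp
    refine ⟨1, Nat.one_pos, ?_⟩
    show step code (off, σ) = _
    by_cases hr : σ r = 0
    · rw [step_dec_zero hp hr]
      simp [hr]
    · rw [step_dec_pos hp hr]
  | seq _ _ ihp ihq =>
    intro off e ⟨h1, h2⟩
    obtain ⟨t, ht, e1⟩ := ihp h1
    obtain ⟨u, _, e2⟩ := ihq h2
    exact ⟨u + t, by omega, by rw [iterate_add_apply, e1, e2]⟩
  | loopStop hr => exact fun hp => ⟨1, Nat.one_pos, step_dec_zero hp.1 hr⟩
  | @loopStep r m p σ σ₁ σ₂ hr _ _ ihp ihl =>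
    intro off e hp
    obtain ⟨t, _, e1⟩ := ihp hp.2
    obtain ⟨u, _, e2⟩ := ihl hp
    refine ⟨u + t + 1, by omega, ?_⟩
    rw [iterate_succ_apply, step_dec_pos hp.1 (by omega), hr, Nat.add_sub_cancel,
      iterate_add_apply, e1, e2]

namespace Cmd

/-- The whole program of a command: its code followed by `halt`. -/
def code (p : Cmd) : List NInstr := p.flat 0 p.size ++ [.halt]

theorem length_code (p : Cmd) : p.code.length = p.size + 1 := by simp [code, length_flat]

theorem placed_code (p : Cmd) : p.Placed p.code 0 p.size :=
  placed_flat p [] [.halt] p.size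

theorem getElem?_code_halt (p : Cmd) {l : ℕ} : p.code[l]? = some .halt ↔ l = p.size := by
  rcases lt_trichotomy l p.size with h | rfl | h
  · rw [code, List.getElem?_append_left (by rwa [length_flat])]
    exact iff_of_false (fun hm => not_halt_mem_flat p _ _ (List.mem_of_getElem? hm)) h.ne
  · simp [code, length_flat]
  · rw [List.getElem?_eq_none (by rw [length_code]; omega)]
    simp [h.ne']

theorem wf_code {p : Cmd} {R : ℕ} (h : p.bound ≤ R) :
    ∀ i ∈ p.code, NInstr.WF R (p.size + 1) i := by
  intro i hi
  rcases List.mem_append.1 hi with h' | h'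
  · exact wf_flat p _ _ h (by omega) (by omega) i h'
  · simp only [List.mem_singleton] at h'
    subst h'
    trivial

/-- The register machine of a command, with inputs in the first `n` registers. -/
abbrev toProgram (p : Cmd) (n : ℕ) : Program n :=
  haveI : NeZero (n + (p.bound + 1)) := ⟨by omega⟩
  { extra := p.bound + 1
    labels := p.size + 1
    start := 0
    code := fun l => (p.code[(l : ℕ)]'(by rw [length_code]; exact l.2)).toInstr _ _ }

/-- The initial registers: the inputs, then zeros. -/
def initReg {n : ℕ} (a : Fin n → ℕ) (r : ℕ) : ℕ := if h : r < n then a ⟨r, h⟩ else 0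

variable {n : ℕ} (p : Cmd)

/-- A machine configuration read with `ℕ`-indexed registers. -/
def view (c : (p.toProgram n).Config) : ℕ × (ℕ → ℕ) :=
  ((c.1 : ℕ), fun r => if h : r < n + (p.bound + 1) then c.2 ⟨r, h⟩ else 0)

theorem view_update (c : (p.toProgram n).Config) (r : ℕ) (hr : r < n + (p.bound + 1)) (v : ℕ) :
    (fun x => if h : x < n + (p.bound + 1) then update c.2 ⟨r, hr⟩ v ⟨x, h⟩ else 0) =
      update (p.view c).2 r v := by
  funext x
  by_cases hx : x = r
  · subst hx; simp [hr]
  · simp [view, hx, update]

theorem view_step (c : (p.toProgram n).Config) :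
    p.view ((p.toProgram n).step c) = NInstr.step p.code (p.view c) := by
  have hl : (c.1 : ℕ) < p.code.length := by rw [length_code]; exact c.1.2
  have hget : p.code[(p.view c).1]? = some p.code[(c.1 : ℕ)] := List.getElem?_eq_getElem hl
  have hwf := wf_code (p := p) (R := n + (p.bound + 1)) (by omega) _
    (List.getElem_mem hl)
  unfold Program.step NInstr.step
  rw [hget]
  simp only [toProgram]
  cases hi : p.code[(c.1 : ℕ)] with
  | halt => simp [NInstr.toInstr]
  | inc r l =>
    rw [hi] at hwf
    obtain ⟨hr, hlt⟩ := hwf
    simp only [NInstr.toInstr, Fin.ofNat, Nat.mod_eq_of_lt hr, Nat.mod_eq_of_lt hlt]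
    refine Prod.ext rfl ?_
    refine (view_update p c r hr _).trans ?_
    simp [view, hr]
  | dec r u z =>
    rw [hi] at hwf
    obtain ⟨hr, hu, hz⟩ := hwf
    simp only [NInstr.toInstr, Fin.ofNat, Nat.mod_eq_of_lt hr, Nat.mod_eq_of_lt hu,
      Nat.mod_eq_of_lt hz]
    have hv : (p.view c).2 r = c.2 ⟨r, hr⟩ := dif_pos hr
    rw [hv]
    split_ifs
    · rfl
    · exact Prod.ext rfl (view_update p c r hr _)

theorem view_run (a : Fin n → ℕ) (t : ℕ) :
    p.view ((p.toProgram n).run a t) = (NInstr.step p.code)^[t] (0, initReg a) := by
  induction t with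
  | zero =>
    refine Prod.ext rfl (funext fun r => ?_)
    simp only [view, Program.run, Program.init, Function.iterate_zero, id, initReg]
    by_cases hr : r < n
    · rw [dif_pos hr, dif_pos (by omega)]
      exact Fin.append_left a 0 ⟨r, hr⟩
    · rw [dif_neg hr]
      split_ifs with h
      · have : (⟨r, h⟩ : Fin (n + (p.bound + 1))) = Fin.natAdd n ⟨r - n, by omega⟩ := by
          ext; simp; omega
        rw [this]
        exact Fin.append_right a 0 _
      · rfl
  | succ t ih =>
    rw [Program.run, iterate_succ_apply', ← Program.run, view_step, ih, iterate_succ_apply']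

theorem code_halt_iff (l : Fin (p.toProgram n).labels) :
    (p.toProgram n).code l = .halt ↔ (l : ℕ) = p.size := by
  have hl : (l : ℕ) < p.code.length := by rw [length_code]; exact l.2
  rw [← getElem?_code_halt p, List.getElem?_eq_getElem hl]
  simp only [toProgram]
  cases p.code[(l : ℕ)] <;> simp [NInstr.toInstr]

/-- The machine halts iff the flat code ever reaches its exit. -/
theorem halts_iff (a : Fin n → ℕ) : (∃ T, (p.toProgram n).HaltsAt a T) ↔
    ∃ t, ((NInstr.step p.code)^[t] (0, initReg a)).1 = p.size := by
  have key : ∀ t, (p.toProgram n).code ((p.toProgram n).run a t).1 = .halt ↔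
      ((NInstr.step p.code)^[t] (0, initReg a)).1 = p.size := fun t => by
    rw [code_halt_iff, ← view_run]
    rfl
  constructor
  · exact fun ⟨T, hT, _⟩ => ⟨T, (key T).1 hT⟩
  · intro h
    classical
    exact ⟨Nat.find h, (key _).2 (Nat.find_spec h),
      fun t ht hh => Nat.find_min h ht ((key t).1 hh)⟩

/-- The exit is absorbing. -/
theorem iterate_exit (σ : ℕ → ℕ) (t : ℕ) :
    (NInstr.step p.code)^[t] (p.size, σ) = (p.size, σ) :=
  Function.iterate_fixed (by simp [NInstr.step, (getElem?_code_halt p).2 rfl]) t

end Cmd

end Vale.Agent.P345
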