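import Mathlib

/-!
# P345 Compile: an r.e. predicate is a search for a zero of a primitive recursive function
-/

namespace Vale.Agent.P345

open Nat.Partrec

/-- The code of an input, through the `Primcodable` structure. -/
def inputCode {n : ℕ} (a : Fin n → ℕ) : ℕ :=
  (Primcodable.toEncodable (α := Fin n → ℕ)).encode a

theorem REPred.exists_code {n : ℕ} {S : (Fin n → ℕ) → Prop} (hS : REPred S) :
    ∃ c : Code, ∀ a, S a ↔ (Code.eval c (inputCode a)).Dom := by
  obtain ⟨c, hc⟩ := Code.exists_code.1 hS
  refine ⟨c, fun a => ?_⟩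
  have e : (Primcodable.toEncodable (α := Fin n → ℕ)).decode (inputCode a) = some a :=
    (Primcodable.toEncodable (α := Fin n → ℕ)).encodek a
  rw [hc]
  simp only [e, Part.coe_some, Part.bind_some]
  simp [Part.assert]

theorem REPred.exists_primrec' {n : ℕ} {S : (Fin n → ℕ) → Prop} (hS : REPred S) :
    ∃ g : List.Vector ℕ (n + 1) → ℕ, Nat.Primrec' g ∧
      ∀ a, S a ↔ ∃ k, g (k ::ᵥ List.Vector.ofFn a) = 0 := by
  obtain ⟨c, hc⟩ := REPred.exists_code hS
  refine ⟨fun v => cond (Code.evaln v.head c (inputCode v.tail.get)).isSome 0 1,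
    Nat.Primrec'.of_prim ?_, fun a => ?_⟩
  · exact (Primrec.cond
      (Primrec.option_isSome.comp (Code.primrec_evaln.comp
        ((Primrec.vector_head.pair (Primrec.const c)).pair
          (Primrec.encode.comp (Primrec.vector_get'.comp Primrec.vector_tail)))))
      (Primrec.const 0) (Primrec.const 1)).of_eq fun v => rfl
  · have hg : (List.Vector.ofFn a).get = a := funext fun i => List.Vector.get_ofFn a i
    rw [hc a, Part.dom_iff_mem]
    simp only [Code.evaln_complete, List.Vector.head_cons, List.Vector.tail_cons, hg]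
    constructor
    · rintro ⟨x, k, hk⟩
      exact ⟨k, by simp [Option.mem_def.1 hk]⟩
    · rintro ⟨k, hk⟩
      rcases h : Code.evaln k c (inputCode a) with _ | x
      · simp [h] at hk
      · exact ⟨x, k, h⟩

end Vale.Agent.P345
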